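import Vale.Agent.P300.Hulls
import Vale.Agent.P300.Deck

/-!
P300: convexity of universal covers carrying a bounded equidimensional holomorphic immersion.
-/

namespace Vale.Agent.Results.P300.BoundedImmersion

open Vale.Agent.P300
open scoped Manifold ContDiff

theorem result (n : ℕ) (X V : Type)
    [TopologicalSpace X] [T2Space X] [CompactSpace X]
    [ChartedSpace (EuclideanSpace ℂ (Fin n)) X]
    [IsManifold 𝓘(ℂ, EuclideanSpace ℂ (Fin n)) ω X]
    [TopologicalSpace V] [T2Space V] [SimplyConnectedSpace V]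
    [ChartedSpace (EuclideanSpace ℂ (Fin n)) V]
    [IsManifold 𝓘(ℂ, EuclideanSpace ℂ (Fin n)) ω V]
    (p : V → X) (hcov : IsCoveringMap p) (hsurj : Function.Surjective p)
    (hp : IsLocalDiffeomorph 𝓘(ℂ, EuclideanSpace ℂ (Fin n)) 𝓘(ℂ, EuclideanSpace ℂ (Fin n)) ω p)
    (φ : V → EuclideanSpace ℂ (Fin n))
    (hφ : IsLocalDiffeomorph 𝓘(ℂ, EuclideanSpace ℂ (Fin n)) 𝓘(ℂ, EuclideanSpace ℂ (Fin n)) ω φ)
    (hbdd : Bornology.IsBounded (Set.range φ)) :
    (∀ K : Set V, IsCompact K → IsCompact (pshHull (EuclideanSpace ℂ (Fin n)) K)) ∧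
    (Dense {w : EuclideanSpace ℂ (Fin n) | (φ ⁻¹' {w}).Finite} →
      ∀ K : Set V, IsCompact K → IsCompact (holHull (EuclideanSpace ℂ (Fin n)) K)) := by
  obtain ⟨F, hF, hco⟩ := exists_cocompact_deck hcov hsurj hp
  obtain ⟨B, hB⟩ := hbdd.exists_norm_le
  have hB' : ∀ z, ‖φ z‖ ≤ B := fun z => hB _ ⟨z, rfl⟩
  exact ⟨fun K hK => isCompact_pshHull hφ hF hco hB' hK,
    fun hD K hK => isCompact_holHull hφ hF hco hB' hD hK⟩

end Vale.Agent.Results.P300.BoundedImmersion
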